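import Vale.Agent.P015.Final

namespace Vale.Agent.Results.P015.Moat

/-- The graph `G_D`: vertices are all Gaussian primes (irreducible Gaussian integers), and two
distinct ones are adjacent when their Euclidean distance is at most `D`. -/
def primeGraph (D : ℝ) : SimpleGraph {z : GaussianInt // Irreducible z} where
  Adj z w := z ≠ w ∧ dist (GaussianInt.toComplex z.1) (GaussianInt.toComplex w.1) ≤ D
  symm := ⟨fun _ _ h => ⟨h.1.symm, dist_comm (GaussianInt.toComplex _) _ ▸ h.2⟩⟩
  loopless := ⟨fun _ h => h.1 rfl⟩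

theorem result (D : ℝ) :
    (∀ C : (primeGraph D).ConnectedComponent, C.supp.Finite) ∧
    ¬ ∃ z : ℕ → GaussianInt, (∀ n, Irreducible (z n)) ∧ Function.Injective z ∧
      ∀ n, dist (GaussianInt.toComplex (z n)) (GaussianInt.toComplex (z (n + 1))) ≤ D := by
  have key : ¬ ∃ z : ℕ → GaussianInt, (∀ n, Irreducible (z n)) ∧ Function.Injective z ∧
      ∀ n, dist (GaussianInt.toComplex (z n)) (GaussianInt.toComplex (z (n + 1))) ≤ D := by
    rintro ⟨z, h1, h2, h3⟩
    exact Vale.Agent.P015.no_prime_walk _ z ⟨fun n => Vale.Agent.P015.small_of_dist (h3 n), h2⟩ h1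
  refine ⟨fun C => ?_, key⟩
  induction C using SimpleGraph.ConnectedComponent.ind with
  | h a =>
    by_contra hinf
    obtain ⟨z, h1, h2⟩ := Vale.Agent.P015.exists_ray (primeGraph D) Subtype.val
      Subtype.val_injective _ (fun _ _ h => Vale.Agent.P015.small_of_dist h.2) a
      (fun h => hinf (h.subset fun b hb =>
        (SimpleGraph.ConnectedComponent.exact
          ((SimpleGraph.ConnectedComponent.mem_supp_iff _ _).1 hb)).symm))
    exact key ⟨fun n => (z n).1, fun n => (z n).2, Subtype.val_injective.comp h1,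
      fun n => (h2 n).2⟩

end Vale.Agent.Results.P015.Moat
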